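import Vale.Agent.P014Y.Top
import Vale.Agent.P014Y.Inf
import Vale.Agent.P014Y.Lf
import Vale.Agent.P014Y.Ana
import Vale.Agent.P014Y.Sym
import Vale.Agent.P014Y.Hec
import Vale.Agent.P014Y.Gen
import Vale.Agent.P014Y.Qr
import Vale.Agent.P014Y.Tam0
import Vale.Agent.P014Y.Tam11
import Vale.Agent.P014Y.L11
import Vale.Agent.P014Y.G.Sel
import Vale.Agent.P014Z.Prf
import Vale.Agent.P014Z.Lat1
import Vale.Agent.P014Z.Lat2
import Vale.Agent.P014Z.Num
import Vale.Agent.P014Z.Lv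
import Vale.Agent.P014Z.Tw
import Vale.Agent.P014Z.Vc
import Vale.Agent.P014Z.Fin

/-!
# P014: the 2-part of the Birch and Swinnerton-Dyer formula for the twists of `X_0(11)` by `-11 M`
-/

namespace Vale.Agent.Results.P014.AATwoPartElevenTwists

open Vale.Agent.P014 Vale.Agent.P014Y
open Vale.Agent.P014Z (tw11)

theorem result : {M : ℕ | Good M}.Infinite ∧ ∀ M : ℕ, Good M → ∀ E : WeierstrassCurve ℚ,
    E = tw11 (-11 * M) →
    E.IsElliptic ∧ GlobalMinimal E ∧ Finite E.toAffine.Point ∧ Odd (torsionOrder E) ∧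
      Nat.card (shaPrimary E 2) = 1 ∧ tamagawaProduct E = 2 ∧ (∃ L, IsHasseWeil E L) ∧
      ∀ L, IsHasseWeil E L → L 1 ≠ 0 ∧ PPartRankZero E L 2 := by
  refine ⟨good_infinite, fun M hM E hE => hE ▸ ?_⟩
  have hS := sym_of P014Z.prf
  have hH := hec_of hS
  have h1 := P014Z.lat1_of P014Z.prf
  have hV := P014Z.lv_of P014Z.ph h1 P014Z.lat2 P014Z.num
  have hL := lam_of P014Z.exists_ex P014Z.prf h1 P014Z.lat2 hV hS
  have hB := base_of P014Z.prf P014Z.ph hV hS hH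
  exact top qr tam0 (tam11_of l11)
    (ana_of P014Z.gau Lf.lf (P014Z.mel_of Lf.lf) Lf.rp hS qr hL (gen_of hS hH hL hB qr odd_a))
    G.sha G.twod Lf.min (P014Z.fin_of P014Z.vc) M hM

end Vale.Agent.Results.P014.AATwoPartElevenTwists
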