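import Vale.Agent.P014Z.All
import Vale.Agent.P014Z.Lf2
import Vale.Agent.P014Z.Mr

/-!
# The `5`-part of the Birch and Swinnerton-Dyer formula for twists of `X_0(11)`
-/

namespace Vale.Agent.Results.P014.FivePartTwists11

open Vale.Agent.P014 Vale.Agent.P014Z

/-- Let `m > 3` be squarefree, `m ≡ 3 (mod 4)`, let `5` and `11` be inert or ramified in
`K = ℚ(√-m)` and let the class number of `K` be prime to `5`. Then the twist `E` of `X_0(11)` by
`-m` has analytic rank zero, finitely many rational points, trivial `Sha[5^∞]`, and the `5`-part of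
the Birch and Swinnerton-Dyer formula holds for `E`. -/
theorem result (m : ℕ) (hm : Squarefree m) (h4 : m % 4 = 3) (h3 : 3 < m)
    (h5 : jacobiSym (-m) 5 ≠ 1) (h11 : jacobiSym (-m) 11 ≠ 1)
    (K : Type) [Field K] [NumberField K] (hK : Module.finrank ℚ K = 2)
    (hs : ∃ s : K, s ^ 2 = -(m : K)) (hh : ¬ 5 ∣ NumberField.classNumber K) :
    (tw11 (-m)).Δ ≠ 0 ∧ GlobalMinimal (tw11 (-m)) ∧ Finite (tw11 (-m)).toAffine.Point ∧
      Nat.card (shaPrimary (tw11 (-m)) 5) = 1 ∧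
      (Function.mulSupport fun p : Nat.Primes =>
        haveI : Fact (p : ℕ).Prime := ⟨p.2⟩; tamagawa (tw11 (-m)) p).Finite ∧
      (∃ L, IsHasseWeil (tw11 (-m)) L) ∧
      ∀ L, IsHasseWeil (tw11 (-m)) L → L 1 ≠ 0 ∧ PPartRankZero (tw11 (-m)) L 5 :=
  ⟨tw11_disc (by omega), top_of (anf_of' lf2 rp3) lf2 min3 seld sha (fin_of vc) tam0 tam1 m K
    ⟨hm, h4, h3, h5, h11⟩ ⟨hK, hs, hh⟩⟩

end Vale.Agent.Results.P014.FivePartTwists11
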